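import Vale.Agent.P146.Tail.Guerra.Model

/-!
Elementary facts about the exponential moments of the free energy: integrability, the annealed
bound at orders at least one, and Jensen's inequality.
-/

noncomputable section

open MeasureTheory ProbabilityTheory
open scoped BigOperators

namespace Vale.Agent.P146.Tail.Final

variable {n : ℕ}

lemma partition_pos (β : ℝ) (g : Pair n → ℝ) :
    0 < ∑ s : Fin n → Bool, Real.exp (β * hamiltonian n g s) :=
  Finset.sum_pos (fun _ _ => Real.exp_pos _) Finset.univ_nonempty

lemma continuous_freeEnergy (n : ℕ) (β : ℝ) : Continuous (freeEnergy n β) := by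
  unfold freeEnergy hamiltonian
  exact Continuous.log (by fun_prop) fun g =>
    (Finset.sum_pos (fun s _ => Real.exp_pos _) Finset.univ_nonempty).ne'

instance isProb (n : ℕ) : IsProbabilityMeasure (disorder n) := by
  unfold disorder; infer_instance

lemma hamiltonian_mul (t : ℝ) (g : Pair n → ℝ) (s : Fin n → Bool) :
    t * hamiltonian n g s =
      ∑ p : Pair n, t / Real.sqrt n * (spin (s p.1.1) * spin (s p.1.2)) * g p := by
  rw [hamiltonian, Finset.sum_div, Finset.mul_sum]
  exact Finset.sum_congr rfl fun p _ => by ring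

lemma integrable_exp_hamiltonian (t : ℝ) (s : Fin n → Bool) :
    Integrable (fun g => Real.exp (t * hamiltonian n g s)) (disorder n) := by
  simp only [hamiltonian_mul, Real.exp_sum]
  have h := Integrable.fintype_prod (ι := Pair n) (μ := fun _ : Pair n => gaussianReal 0 1)
    (f := fun p x => Real.exp (t / Real.sqrt n * (spin (s p.1.1) * spin (s p.1.2)) * x))
    fun p => integrable_exp_mul_gaussianReal _
  exact h

/-- The annealed moment of one configuration. -/
lemma integral_exp_hamiltonian (hn : 1 ≤ n) (t : ℝ) (s : Fin n → Bool) :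
    ∫ g, Real.exp (t * hamiltonian n g s) ∂disorder n ≤ Real.exp (t ^ 2 * n / 4) := by
  simp only [hamiltonian_mul, Real.exp_sum]
  rw [show disorder n = Measure.pi fun _ : Pair n => gaussianReal 0 1 from rfl,
    integral_fintype_prod_eq_prod (μ := fun _ : Pair n => gaussianReal 0 1)
      (fun p x => Real.exp (t / Real.sqrt n * (spin (s p.1.1) * spin (s p.1.2)) * x))]
  have e : ∀ a : ℝ, ∫ x, Real.exp (a * x) ∂gaussianReal 0 1 = Real.exp (a ^ 2 / 2) := fun a => by
    have h := congrFun (mgf_id_gaussianReal (μ := 0) (v := 1)) a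
    simpa [mgf] using h
  simp only [e, ← Real.exp_sum]
  refine Real.exp_le_exp.2 ?_
  have hn' : (0 : ℝ) < n := by exact_mod_cast hn
  have hs : ∀ b : Bool, spin b * spin b = 1 := fun b => by cases b <;> simp [spin]
  have e2 : ∀ p : Pair n, (t / Real.sqrt n * (spin (s p.1.1) * spin (s p.1.2))) ^ 2 / 2 =
      t ^ 2 / (2 * n) := fun p => by
    rw [mul_pow, div_pow, Real.sq_sqrt hn'.le, mul_pow, sq (spin _), sq (spin _), hs, hs]
    ring
  simp only [e2, Finset.sum_const, Finset.card_univ, nsmul_eq_mul]
  have hc : 2 * (Fintype.card (Pair n) : ℝ) ≤ n * n := by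
    linarith [Guerra.two_card_pairs n]
  calc (Fintype.card (Pair n) : ℝ) * (t ^ 2 / (2 * n))
      = 2 * (Fintype.card (Pair n) : ℝ) * (t ^ 2 / (4 * n)) := by ring
    _ ≤ (n : ℝ) * n * (t ^ 2 / (4 * n)) := mul_le_mul_of_nonneg_right hc (by positivity)
    _ = t ^ 2 * n / 4 := by field_simp

/-- The annealed bound at orders at least one. -/
theorem annealed (β : ℝ) (hn : 1 ≤ n) {μ : ℝ} (hμ : 1 ≤ μ) :
    Integrable (fun g => Real.exp (μ * freeEnergy n β g)) (disorder n) ∧
      ∫ g, Real.exp (μ * freeEnergy n β g) ∂disorder n ≤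
        Real.exp ((n : ℝ) * μ * Real.log 2 + μ ^ 2 * β ^ 2 * n / 4) := by
  have hle : ∀ g, Real.exp (μ * freeEnergy n β g) ≤
      ((2 : ℝ) ^ n) ^ (μ - 1) * ∑ s : Fin n → Bool, Real.exp (μ * β * hamiltonian n g s) := fun g => by
    rw [freeEnergy, mul_comm μ, Real.exp_mul, Real.exp_log (partition_pos β g)]
    refine (Real.rpow_sum_le_const_mul_sum_rpow_of_nonneg Finset.univ hμ
      fun s _ => (Real.exp_pos _).le).trans (le_of_eq ?_)
    rw [Finset.card_univ, Fintype.card_fun, Fintype.card_bool, Fintype.card_fin]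
    push_cast
    congr 1
    exact Finset.sum_congr rfl fun s _ => by rw [← Real.exp_mul]; ring_nf
  have hi : Integrable (fun g => ((2 : ℝ) ^ n) ^ (μ - 1) *
      ∑ s : Fin n → Bool, Real.exp (μ * β * hamiltonian n g s)) (disorder n) :=
    (integrable_finsetSum _ fun s _ => integrable_exp_hamiltonian _ s).const_mul _
  have hint : Integrable (fun g => Real.exp (μ * freeEnergy n β g)) (disorder n) :=
    hi.mono' ((continuous_const.mul (continuous_freeEnergy n β)).rexp).aestronglyMeasurable
      (.of_forall fun g => by rw [Real.norm_eq_abs, Real.abs_exp]; exact hle g)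
  refine ⟨hint, (integral_mono hint hi hle).trans ?_⟩
  rw [integral_const_mul, integral_finsetSum _ fun s _ => integrable_exp_hamiltonian _ s]
  refine (mul_le_mul_of_nonneg_left
    (Finset.sum_le_sum fun s _ => integral_exp_hamiltonian hn _ s) (by positivity)).trans
      (le_of_eq ?_)
  rw [Finset.sum_const, Finset.card_univ, Fintype.card_fun, Fintype.card_bool, Fintype.card_fin,
    nsmul_eq_mul]
  push_cast
  have h2 : (0 : ℝ) < 2 ^ n := by positivity
  rw [Real.rpow_def_of_pos h2, Real.log_pow]
  conv_lhs => rw [show ((2 : ℝ) ^ n) = Real.exp ((n : ℝ) * Real.log 2) by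
    rw [Real.exp_nat_mul, Real.exp_log two_pos]]
  rw [← Real.exp_add, ← Real.exp_add]
  congr 1
  ring

lemma abs_le_exp_add_exp (x : ℝ) : |x| ≤ Real.exp x + Real.exp (-x) := by
  rcases le_total 0 x with h | h
  · rw [abs_of_nonneg h]; linarith [Real.add_one_le_exp x, Real.exp_pos (-x)]
  · rw [abs_of_nonpos h]; linarith [Real.add_one_le_exp (-x), Real.exp_pos x]

/-- The free energy is integrable. -/
lemma integrable_freeEnergy (hn : 1 ≤ n) (β : ℝ) : Integrable (freeEnergy n β) (disorder n) := by
  obtain ⟨h1, -⟩ := annealed β hn (le_refl (1 : ℝ))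
  simp only [one_mul] at h1
  set s₀ : Fin n → Bool := fun _ => true
  have h2 : Integrable (fun g => Real.exp (-β * hamiltonian n g s₀)) (disorder n) :=
    integrable_exp_hamiltonian _ s₀
  refine (h1.add h2).mono' (continuous_freeEnergy n β).aestronglyMeasurable
    (.of_forall fun g => ?_)
  rw [Real.norm_eq_abs, Pi.add_apply]
  refine (abs_le_exp_add_exp _).trans (add_le_add le_rfl (Real.exp_le_exp.2 ?_))
  have : β * hamiltonian n g s₀ ≤ freeEnergy n β g := by
    rw [freeEnergy, Real.le_log_iff_exp_le (partition_pos β g)]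
    exact Finset.single_le_sum (f := fun s => Real.exp (β * hamiltonian n g s))
      (fun s _ => (Real.exp_pos _).le) (Finset.mem_univ s₀)
  linarith

/-- Jensen's inequality. -/
lemma exp_integral_le {f : (Pair n → ℝ) → ℝ} (hf : Integrable f (disorder n))
    (he : Integrable (fun g => Real.exp (f g)) (disorder n)) :
    Real.exp (∫ g, f g ∂disorder n) ≤ ∫ g, Real.exp (f g) ∂disorder n := by
  set a := ∫ g, f g ∂disorder n
  have h : ∀ g, Real.exp a * (1 + (f g - a)) ≤ Real.exp (f g) := fun g => by
    have h1 := mul_le_mul_of_nonneg_left (Real.add_one_le_exp (f g - a)) (Real.exp_pos a).le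
    rw [← Real.exp_add, show a + (f g - a) = f g by ring] at h1
    linarith
  have hi : Integrable (fun g => Real.exp a * (1 + (f g - a))) (disorder n) :=
    ((integrable_const (1 : ℝ)).add (hf.sub (integrable_const a))).const_mul _
  have h2 := integral_mono hi he h
  rw [integral_const_mul, integral_add (integrable_const _) (hf.sub' (integrable_const a)),
    integral_sub hf (integrable_const a)] at h2
  simpa [a] using h2

end Vale.Agent.P146.Tail.Final
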