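import Vale.Agent.P146.Div.Lower
import Vale.Agent.P146.Tail.Final.Annealed
import Vale.Agent.P146.Tail.Statements

/-!
The variational value is the limit of the free energy and bounds it at every size.
-/

noncomputable section

open MeasureTheory ProbabilityTheory Filter
open scoped BigOperators Topology

namespace Vale.Agent.P146.Tail.Final

open Vale.Agent.P157.Parisi (Path IsPath)
open Vale.Agent.P146.Div (skVal tiltP)
open Vale.Agent.P146.Div.Min (val skVal_eq)

/-- The values of the functional at paths with root zero. -/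
def values (β : ℝ) : Set ℝ := {v | ∃ ξ : Path, ξ.q 0 = 0 ∧ skVal β ξ = v}

/-- The limiting free energy per site. -/
def pval (β : ℝ) : ℝ := sInf (values β)

lemma values_nonempty (β : ℝ) : (values β).Nonempty := by
  refine ⟨_, ⟨0, Fin.elim0, fun _ => 0, ⟨fun i => i.elim0, fun i => i.elim0, fun i => i.elim0,
    monotone_const, le_rfl, zero_le_one⟩⟩, rfl, rfl⟩

lemma exists_lower (ξ : Path) : ∃ μ : ℝ, 0 < μ ∧ μ ≤ 1 ∧ ∀ i, μ ≤ ξ.m i := by
  refine ⟨(insert 1 (Finset.univ.image ξ.m)).min' (Finset.insert_nonempty _ _), ?_,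
    Finset.min'_le _ _ (Finset.mem_insert_self _ _), fun i => Finset.min'_le _ _ (by simp)⟩
  rw [Finset.lt_min'_iff]
  intro y hy
  rcases Finset.mem_insert.1 hy with rfl | hy
  · exact one_pos
  · obtain ⟨i, -, rfl⟩ := Finset.mem_image.1 hy
    exact ξ.isPath.pos i

variable {n : ℕ} {β : ℝ}

/-- The free energy is at most the functional, in mean. -/
lemma mean_le_skVal (hG : GuerraStmt) (β : ℝ) (hn : 1 ≤ n) (ξ : Path) (h0 : ξ.q 0 = 0) :
    ∫ g, freeEnergy n β g ∂disorder n ≤ n * skVal β ξ := by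
  obtain ⟨μ, hμ, hμ1, hle⟩ := exists_lower ξ
  obtain ⟨hi, hb⟩ := hG β n hn μ hμ hμ1 ξ.r ξ.m ξ.q
    ⟨ξ.isPath.strictMono.monotone, hle, fun i => (ξ.isPath.lt_one i).le, ξ.isPath.mono, h0,
      ξ.isPath.le_one⟩
  have h := (exp_integral_le ((integrable_freeEnergy hn β).const_mul μ) hi).trans hb
  rw [Real.exp_le_exp, integral_const_mul, ← skVal_eq β ξ h0] at h
  exact le_of_mul_le_mul_left (by linarith) hμ

lemma values_bddBelow (hG : GuerraStmt) (β : ℝ) : BddBelow (values β) := by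
  refine ⟨∫ g, freeEnergy 1 β g ∂disorder 1, fun v hv => ?_⟩
  obtain ⟨ξ, h0, rfl⟩ := hv
  simpa using mean_le_skVal hG β le_rfl ξ h0

/-- The free energy is at most `n` times the limit, in mean. -/
lemma mean_le_pval (hG : GuerraStmt) (β : ℝ) (hn : 1 ≤ n) :
    ∫ g, freeEnergy n β g ∂disorder n ≤ n * pval β := by
  have hn' : (0 : ℝ) < n := by exact_mod_cast hn
  rw [← div_le_iff₀' hn']
  refine le_csInf (values_nonempty β) fun v hv => ?_
  obtain ⟨ξ, h0, rfl⟩ := hv
  rw [div_le_iff₀' hn']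
  exact mean_le_skVal hG β hn ξ h0

/-- The limit of the free energy. -/
lemma tendsto_pval (hG : GuerraStmt) (hβ : 0 < β) :
    Tendsto (fun n : ℕ => (∫ g, freeEnergy n β g ∂disorder n) / n) atTop (𝓝 (pval β)) := by
  refine tendsto_order.2 ⟨fun a ha => ?_, fun b hb => ?_⟩
  · filter_upwards [Div.lower β hβ ((pval β - a) / 2) (by linarith)] with n hn
    obtain ⟨ξ, h0, hξ⟩ := hn
    have h1 : pval β ≤ skVal β ξ := csInf_le (values_bddBelow hG β) ⟨ξ, h0, rfl⟩
    rw [Div.Lower.tiltP_zero, one_div_mul_eq_div] at hξ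
    linarith
  · filter_upwards [eventually_ge_atTop 1] with n hn
    have hn' : (0 : ℝ) < n := by exact_mod_cast hn
    exact lt_of_le_of_lt ((div_le_iff₀' hn').2 (mean_le_pval hG β hn)) hb

/-- The exponential moment of order `μ` around the limit. -/
lemma moment_le (hG : GuerraStmt) {A : ℝ}
    (hA : ∀ ξ : Path, ξ.q 0 = 0 → ∀ μ : ℝ, 0 < μ → μ < 1 →
      ∃ (r : ℕ) (m : Fin r → ℝ) (q : Fin (r + 1) → ℝ),
        Above μ m q ∧ val β m q ≤ skVal β ξ + A * μ ^ 5)
    (hn : 1 ≤ n) {μ : ℝ} (hμ : 0 < μ) (hμ1 : μ < 1) :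
    Integrable (fun g => Real.exp (μ * freeEnergy n β g)) (disorder n) ∧
      ∫ g, Real.exp (μ * freeEnergy n β g) ∂disorder n ≤
        Real.exp (n * μ * pval β + A * n * μ ^ 6) := by
  have hn' : (0 : ℝ) < n := by exact_mod_cast hn
  have key : ∀ ξ : Path, ξ.q 0 = 0 →
      Integrable (fun g => Real.exp (μ * freeEnergy n β g)) (disorder n) ∧
        ∫ g, Real.exp (μ * freeEnergy n β g) ∂disorder n ≤
          Real.exp (n * μ * (skVal β ξ + A * μ ^ 5)) := fun ξ h0 => by
    obtain ⟨r, m, q, hab, hv⟩ := hA ξ h0 μ hμ hμ1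
    obtain ⟨hi, hb⟩ := hG β n hn μ hμ hμ1.le r m q hab
    exact ⟨hi, hb.trans (Real.exp_le_exp.2 (mul_le_mul_of_nonneg_left hv (by positivity)))⟩
  obtain ⟨-, ξ₀, h00, -⟩ := values_nonempty β
  obtain ⟨hi, -⟩ := key ξ₀ h00
  refine ⟨hi, ?_⟩
  have hpos : 0 < ∫ g, Real.exp (μ * freeEnergy n β g) ∂disorder n :=
    lt_of_lt_of_le (Real.exp_pos _)
      (exp_integral_le ((integrable_freeEnergy hn β).const_mul μ) hi)
  rw [← Real.log_le_iff_le_exp hpos]
  refine le_of_forall_pos_le_add fun ε hε => ?_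
  have hd : 0 < ε / (n * μ) := by positivity
  obtain ⟨v, ⟨ξ, h0, rfl⟩, hv⟩ := exists_lt_of_csInf_lt (values_nonempty β)
    (show sInf (values β) < pval β + ε / (n * μ) by rw [pval]; linarith)
  have hb := (Real.log_le_iff_le_exp hpos).2 (key ξ h0).2
  have h2 : (n : ℝ) * μ * skVal β ξ ≤ n * μ * pval β + ε := by
    have h3 := mul_le_mul_of_nonneg_left hv.le (by positivity : (0 : ℝ) ≤ n * μ)
    rwa [mul_add, mul_div_cancel₀ _ (by positivity)] at h3
  nlinarith [hb, h2]

end Vale.Agent.P146.Tail.Final
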